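import Vale.Agent.P092.SN.Blocks2

/-!
P092, TEAM N, products (helper943): the joints of a product of factors. Every `Stmt` is a literal
`Prop`; `SNP/Main.lean` derives `CoreE` from them.

`J` = set of factors of the source group `E`; `ι j : SL_(N j + 1)(k j) →* E`; `a j`, `a' j` =
action of `E` on the points and hyperplanes of the factor `j`. `q j : Γ → SL_(N j + 1)(k j)` = the
coordinate of the target which belongs to the factor `j`.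
-/

set_option linter.all false

open scoped InnerProductSpace ENNReal LinearAlgebra.Projectivization ZeroAtInfty
open Filter Topology ContinuousLinearMap MeasureTheory TopologicalSpace

namespace Vale.Agent.P092.SNP

open Vale.Agent.P092.RC (Cm TRN Moore GG PG YY y0 ct)
open Vale.Agent.P092.H100.Gr (Gr)
open Vale.Agent.P092.H35 (sp)
open Vale.Agent.P092.SN

/-- admissible families: different factors act trivially -/
structure AdmP {J : Type} {k : J → Type} [∀ j, NontriviallyNormedField (k j)] {N : J → ℕ}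
    {E : Type} [Group E] [TopologicalSpace E] (ι : ∀ j, GG (k j) (N j) →* E)
    (a a' : ∀ j, E →* PG (k j) (N j + 1)) : Prop where
  adm : ∀ j, Adm (ι j) (a j) (a' j)
  triv : ∀ i j, i ≠ j → ∀ h (x : YY (k j) (N j)), a j (ι i h) • x = x
  triv' : ∀ i j, i ≠ j → ∀ h (x : YY (k j) (N j)), a' j (ι i h) • x = x

/-- the elements on which all coordinates except `j` are bounded -/
def ZP {J : Type} {k : J → Type} [∀ j, NontriviallyNormedField (k j)] {N : J → ℕ} {Γ : Type}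
    (q : ∀ j, Γ → GG (k j) (N j)) (j : J) (R : ℝ) : Set Γ :=
  {γ | ∀ i, i ≠ j → nm (q i γ) ≤ R}

/-- **(X1)** (helper584): `q'` is another coordinate of the target, bounded on `Z R`; `E'` its
calculus of one point -/
def X1Stmt (k k' : Type) [NontriviallyNormedField k] [ProperSpace k] [NontriviallyNormedField k']
    [ProperSpace k'] [MeasurableSpace k] (μ : Measure k) : Prop :=
  ∀ {N N' : ℕ} {E Γ K : Type} [Group E] [TopologicalSpace E] [Group Γ] [NormedAddCommGroup K]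
    [InnerProductSpace ℂ K] [CompleteSpace K] (w : kˣ) (ι : GG k N →* E)
    (a a' : E →* PG k (N + 1)) (π : E →* (K →L[ℂ] K)) (lam : Γ →* (K →L[ℂ] K))
    (W : Set (K →L[ℂ] K)) (Ω : K) (m : Set Γ → (K →L[ℂ] K)) (q : Γ → GG k N) (Z : ℝ → Set Γ)
    (Ec F : YY k N → (CY k N →⋆ₐ[ℂ] (K →L[ℂ] K))) (q' : Γ → GG k' N')
    (E' : CY k' N' →⋆ₐ[ℂ] (K →L[ℂ] K)),
    LegN μ w ι a a' π lam W Ω m q Z Ec F → PH q' →
    (∀ R, ∃ C, ∀ γ ∈ Z R, nm (q' γ) ≤ C) → (∀ f, Cm W (E' f)) →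
    (∀ h f, π (ι h) * E' f = E' f * π (ι h)) →
    (∀ γ f, lam γ * E' f * lam γ⁻¹ = E' (act (q' γ) f)) →
    ∀ c M, inc c M → ∀ (u h : CY k N) (f : CY k' N'), NInc (tsupport u) (tsupport h) →
      Ec c u * E' f * F M h = 0

/-- (X12) the conclusion of (X1) and (X2): calculi of points of different factors commute -/
def X12Stmt (k k' : Type) [NontriviallyNormedField k] [ProperSpace k] [NontriviallyNormedField k']
    [ProperSpace k'] [MeasurableSpace k] (μ : Measure k) : Prop :=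
  ∀ {N N' : ℕ} {E Γ K : Type} [Group E] [TopologicalSpace E] [Group Γ] [NormedAddCommGroup K]
    [InnerProductSpace ℂ K] [CompleteSpace K] (w : kˣ) (ι : GG k N →* E)
    (a a' : E →* PG k (N + 1)) (π : E →* (K →L[ℂ] K)) (lam : Γ →* (K →L[ℂ] K))
    (W : Set (K →L[ℂ] K)) (Ω : K) (m : Set Γ → (K →L[ℂ] K)) (q : Γ → GG k N) (Z : ℝ → Set Γ)
    (Ec F : YY k N → (CY k N →⋆ₐ[ℂ] (K →L[ℂ] K)))
    (G : ∀ j, Gr k (Fin (N + 1)) j → (CG k N j →⋆ₐ[ℂ] (K →L[ℂ] K))) (q' : Γ → GG k' N')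
    (E' : CY k' N' →⋆ₐ[ℂ] (K →L[ℂ] K)),
    LegN μ w ι a a' π lam W Ω m q Z Ec F → CalN ι π lam W q Ec F G → H218.NC.Key₁ G → PH q' →
    (∀ R, ∃ C, ∀ γ ∈ Z R, nm (q' γ) ≤ C) → (∀ f, Cm W (E' f)) →
    (∀ h f, π (ι h) * E' f = E' f * π (ι h)) →
    (∀ γ f, lam γ * E' f * lam γ⁻¹ = E' (act (q' γ) f)) →
    ∀ c (u : CY k N) (f : CY k' N'), Commute (E' f) (Ec c u)

/-- **[P-XC]** (helper325) the two legs commute, product form -/
def XCPStmt {J : Type} [Fintype J] (k : J → Type) [∀ j, NontriviallyNormedField (k j)]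
    [∀ j, ProperSpace (k j)] (N : J → ℕ) : Prop :=
  ∀ {E Γ K : Type} [Group E] [TopologicalSpace E] [Group Γ] [Countable Γ]
    [NormedAddCommGroup K] [InnerProductSpace ℂ K] [CompleteSpace K]
    (ι : ∀ j, GG (k j) (N j) →* E) (a a' : ∀ j, E →* PG (k j) (N j + 1))
    (π : E →* (K →L[ℂ] K)) (lam₁ lam₂ : Γ →* (K →L[ℂ] K)) (X : Set (K →L[ℂ] K)) (Ω : K)
    (q₁ q₂ : ∀ j, Γ → GG (k j) (N j))
    (E₁ E₂ : ∀ j, YY (k j) (N j) → (CY (k j) (N j) →⋆ₐ[ℂ] (K →L[ℂ] K)))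
    (σ₁ σ₂ : ∀ j, k j →+* k j)
    (Q₁ Q₂ : ∀ j, C₀(PG (k j) (N j + 1), ℂ) →⋆ₙₐ[ℂ] (K →L[ℂ] K)),
    AdmP ι a a' → RC.Pic2 π lam₁ lam₂ X Ω → TVE π lam₁ (X ∪ Set.range lam₂) Ω →
    TVE π lam₂ (X ∪ Set.range lam₁) Ω → (∀ j, PH (q₁ j)) → (∀ j, PH (q₂ j)) →
    (∀ C : ℝ, {γ : Γ | ∀ j, nm (q₁ j γ) ≤ C}.Finite) →
    (∀ C : ℝ, {γ : Γ | ∀ j, nm (q₂ j γ) ≤ C}.Finite) →
    (∀ j, ClsN (a j) π lam₁ (X ∪ Set.range lam₂) (q₁ j) (E₁ j) (σ₁ j) (Q₁ j)) →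
    (∀ j, ClsN (a j) π lam₂ (X ∪ Set.range lam₁) (q₂ j) (E₂ j) (σ₂ j) (Q₂ j)) →
    (∀ i j, i ≠ j → ∀ ψ φ, Commute (Q₁ i ψ) (Q₁ j φ)) →
    (∀ i j, i ≠ j → ∀ ψ φ, Commute (Q₂ i ψ) (Q₂ j φ)) →
    ∀ i j ψ φ, Commute (Q₁ i ψ) (Q₂ j φ)

open Vale.Agent.P092.SR Vale.Agent.P092.H160 Vale.Agent.P092.RC in
/-- **[P-EX]** the concrete picture over a product: all factors of both legs and their calculi.
`q₁ j` is the coordinate `τ j` of the target (dualised if necessary). -/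
def ExPStmt {J : Type} [Fintype J] (k : J → Type) [∀ j, NontriviallyNormedField (k j)]
    [∀ j, ProperSpace (k j)] [∀ j, MeasurableSpace (k j)] (μ : ∀ j, Measure (k j)) (N : J → ℕ)
    {E : Type} [Group E] [TopologicalSpace E]
    [IsTopologicalGroup E] [LocallyCompactSpace E] [SecondCountableTopology E] [T2Space E]
    (ι : ∀ j, GG (k j) (N j) →* E) (a a' : ∀ j, E →* PG (k j) (N j + 1)) : Prop :=
  ∀ [MeasurableSpace E] [BorelSpace E] {Γ : Subgroup E} [DiscreteTopology Γ] [Countable Γ]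
    [MeasurableSpace (E ⧸ Γ)] [BorelSpace (E ⧸ Γ)] {ν : Measure (E ⧸ Γ)}
    [IsProbabilityMeasure ν] (hν : ∀ g : E, ν.map (fun x => g • x) = ν)
    (_ : H515.St.IsLattice Γ) (_ : ∀ g : Γ, g ≠ 1 → Set.Infinite {y : Γ | ∃ h, y = h * g * h⁻¹})
    {Λ : Type} [Group Λ] [Countable Λ]
    (_ : ∀ g : Λ, g ≠ 1 → Set.Infinite {y : Λ | ∃ h, y = h * g * h⁻¹})
    {α : Γ →* (Ell2 Λ →L[ℂ] Ell2 Λ)} (hα : Frame α),
    ∃ (w : ∀ j, (k j)ˣ) (m₁ m₂ : Set Γ → (KK ν Λ →L[ℂ] KK ν Λ))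
      (q₁ q₂ : ∀ j, Γ → GG (k j) (N j))
      (E₁ F₁ E₂ F₂ : ∀ j, YY (k j) (N j) → (CY (k j) (N j) →⋆ₐ[ℂ] (KK ν Λ →L[ℂ] KK ν Λ))),
      (∀ j, LegN (μ j) (w j) (ι j) (a j) (a' j) (pic hν hα) (lam₁ ν α)
        (XX ν Λ ∪ Set.range (lam₂ ν α)) (Om ν Λ) m₁ (q₁ j) (ZP q₁ j) (E₁ j) (F₁ j)) ∧
      (∀ j, LegN (μ j) (w j) (ι j) (a j) (a' j) (pic hν hα) (lam₂ ν α)
        (XX ν Λ ∪ Set.range (lam₁ ν α)) (Om ν Λ) m₂ (q₂ j) (ZP q₂ j) (E₂ j) (F₂ j)) ∧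
      (∀ γ, (∀ j, sp (k j) (N j + 1) (q₁ j γ) = 1) → γ = 1) ∧
      (∀ γ, (∀ j, sp (k j) (N j + 1) (q₂ j γ) = 1) → γ = 1) ∧
      (∀ C : ℝ, {γ : Γ | ∀ j, nm (q₁ j γ) ≤ C}.Finite) ∧
      (∀ C : ℝ, {γ : Γ | ∀ j, nm (q₂ j γ) ≤ C}.Finite)

end Vale.Agent.P092.SNP
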