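import Vale.Agent.P092.SNP.Blocks
import Vale.Agent.P092.H943.ProdEnd
import Vale.Agent.P092.H943.Cross
import Vale.Agent.P092.SN.Main
import Vale.Agent.P092.H715.Gen

/-!
P092, TEAM N, products (helper943): the assembly of `CoreE` for a product of factors from the joints
of `SN/Blocks`, `SN/Blocks2`, `SNP/Blocks`.
-/

set_option linter.all false

open scoped InnerProductSpace ENNReal LinearAlgebra.Projectivization ZeroAtInfty
open Filter Topology ContinuousLinearMap MeasureTheory TopologicalSpace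

namespace Vale.Agent.P092.SNP

open Vale.Agent.P092.RC (Cm TRN Moore GG PG YY y0 ct)
open Vale.Agent.P092.H100.Gr (Gr)
open Vale.Agent.P092.H35 (sp mkP)
open Vale.Agent.P092.H35.Sig (sgm sgm_src sgm_mk)
open Vale.Agent.P092.SN
open Vale.Agent.P092.H644.Gr3
open Vale.Agent.P092.H232 (Nin)
open Vale.Agent.P092.H218.NC (In Cal Key₁)
open Vale.Agent.P092.H943 (FLeg joint_pi mono_of_prod x2_point)

section one

variable {k : Type} [NontriviallyNormedField k] [ProperSpace k] {N : ℕ} {E Γ K : Type} [Group E]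
  [TopologicalSpace E] [Group Γ] [NormedAddCommGroup K] [InnerProductSpace ℂ K] [CompleteSpace K]

/-- the points generate -/
theorem clsN_gen {a : E →* PG k (N + 1)} {π : E →* (K →L[ℂ] K)} {lam : Γ →* (K →L[ℂ] K)}
    {W : Set (K →L[ℂ] K)} {q : Γ → GG k N} {Ec : YY k N → (CY k N →⋆ₐ[ℂ] (K →L[ℂ] K))}
    {σ : k →+* k} {Q : C₀(PG k (N + 1), ℂ) →⋆ₙₐ[ℂ] (K →L[ℂ] K)} (h : ClsN a π lam W q Ec σ Q)
    {T : K →L[ℂ] K} (hT : ∀ b f, Commute T (Ec b f)) (ψ : C₀(PG k (N + 1), ℂ)) :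
    Commute T (Q ψ) :=
  H715.Gen.comm_abs H789.isOpenEmbedding_cmap h.nd (E := fun i => Ec (H789.src k N i))
    (fun i f ψ ψ' hψ => h.mulE (H789.src k N i) f ψ ψ' fun x => by
      rw [sgm_src]; exact hψ x) (fun i f => hT _ f) ψ

theorem fleg_of {a : E →* PG k (N + 1)} {π : E →* (K →L[ℂ] K)} {lam : Γ →* (K →L[ℂ] K)}
    {W : Set (K →L[ℂ] K)} {q : Γ → GG k N} {Ec : YY k N → (CY k N →⋆ₐ[ℂ] (K →L[ℂ] K))}
    {σ : k →+* k} {Q : C₀(PG k (N + 1), ℂ) →⋆ₙₐ[ℂ] (K →L[ℂ] K)} (hq : PH q)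
    (h : ClsN a π lam W q Ec σ Q) : FLeg π lam W (qP q hq) Q where
  nd := h.nd
  cm := h.cm
  cov γ ψ ψ' hψ := h.cov γ ψ ψ' hψ
  pcov g := by
    obtain ⟨x, hx⟩ := exists_pg σ (a g)
    exact ⟨x, fun ψ ψ' hψ => h.pcov g x hx ψ ψ' hψ⟩

/-- **(X1) and (X2) give (X12)** -/
theorem x12_of {k' : Type} [NontriviallyNormedField k'] [ProperSpace k'] [MeasurableSpace k]
    {μ : Measure k} (h : X1Stmt k k' μ) : X12Stmt k k' μ := by
  intro N N' E Γ K _ _ _ _ _ _ w ι a a' π lam W Ω m q Z Ec F G q' E' hL hG hK hq' hb hcm hπ hcov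
    c u f
  obtain ⟨u', hu'⟩ : ∃ u' : CG k N 1, fp u' = u :=
    ⟨u.comp ⟨p1H.symm, p1H.symm.continuous⟩, by
      ext x
      change u (p1H.symm (p1 x)) = u x
      rw [← p1H_apply, Homeomorph.symm_apply_apply]⟩
  rw [← hu', ← hG.pnt]
  refine x2_point hL.adm.hN hG.cal hK (E' f) (p1 c) (fun M hM v g hvg => ?_) u'
  obtain ⟨M', rfl⟩ := hyp_surj M
  rw [hG.pnt, hG.top]
  refine h w ι a a' π lam W Ω m q Z Ec F q' E' hL hq' hb hcm hπ hcov c M' (p1_le_hyp.1 hM)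
    (fp v) (fh g) f ?_
  intro x hx l hl hxl
  have h1 : p1 x ∈ tsupport v := tsupport_comp_subset_preimage v p1_cont hx
  have h2 : hyp l ∈ tsupport g := tsupport_comp_subset_preimage g hyp_cont hl
  exact hvg _ h1 _ h2 (p1_le_hyp.2 hxl)

end one

section leg

variable {J : Type} {k : J → Type} [∀ j, NontriviallyNormedField (k j)] [∀ j, ProperSpace (k j)]
  [∀ j, MeasurableSpace (k j)] {μ : ∀ j, Measure (k j)} {N : J → ℕ} {E Γ K : Type} [Group E]
  [TopologicalSpace E] [Group Γ] [NormedAddCommGroup K] [InnerProductSpace ℂ K] [CompleteSpace K]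

/-- **one leg of a product**: the classical calculi of the factors, commuting for different
factors -/
theorem legP {w : ∀ j, (k j)ˣ} {ι : ∀ j, GG (k j) (N j) →* E} {a a' : ∀ j, E →* PG (k j) (N j + 1)}
    {π : E →* (K →L[ℂ] K)} {lam : Γ →* (K →L[ℂ] K)} {W : Set (K →L[ℂ] K)} {Ω : K}
    {m : Set Γ → (K →L[ℂ] K)} {q : ∀ j, Γ → GG (k j) (N j)}
    {Ec F : ∀ j, YY (k j) (N j) → (CY (k j) (N j) →⋆ₐ[ℂ] (K →L[ℂ] K))} (hA : AdmP ι a a')
    (hL : ∀ j, LegN (μ j) (w j) (ι j) (a j) (a' j) π lam W Ω m (q j) (ZP q j) (Ec j) (F j))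
    (h1 : ∀ j, LegComm (k j) (μ j)) (h4 : ∀ j, ClsStmt (k j) (μ j))
    (hX : ∀ i j, i ≠ j → X1Stmt (k i) (k j) (μ i)) :
    ∃ (σ : ∀ j, k j →+* k j) (Q : ∀ j, C₀(PG (k j) (N j + 1), ℂ) →⋆ₙₐ[ℂ] (K →L[ℂ] K)),
      (∀ j, ClsN (a j) π lam W (q j) (Ec j) (σ j) (Q j)) ∧
      (∀ i j, i ≠ j → ∀ ψ φ, Commute (Q i ψ) (Q j φ)) := by
  choose G hG hK using fun j => h1 j (w j) (ι j) (a j) (a' j) π lam W Ω m (q j) (ZP q j) (Ec j)
    (F j) (hL j)
  choose σ Q hQ using fun j => h4 j (w j) (ι j) (a j) (a' j) π lam W Ω m (q j) (ZP q j) (Ec j)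
    (F j) (G j) (hL j) (hG j) (hK j)
  refine ⟨σ, Q, hQ, fun i j hij ψ φ => ?_⟩
  refine clsN_gen (hQ j) (fun y f => ?_) φ
  refine (clsN_gen (hQ i) (fun c u => ?_) ψ).symm
  refine x12_of (hX i j hij) (w i) (ι i) (a i) (a' i) π lam W Ω m (q i) (ZP q i) (Ec i) (F i)
    (G i) (q j) (Ec j y) (hL i) (hG i) (hK i) (hL j).ph (fun R => ⟨R, fun γ hγ => ?_⟩)
    (fun g => (hL j).e.cm y g) (fun h g => ?_) (fun γ g => (hL j).e.cov γ y g) c u f
  · exact hγ j hij.symm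
  · have e := (hL j).e.pcov (ι i h) y g
    rw [hA.triv i j hij h y] at e
    have e2 : π (ι i h)⁻¹ * π (ι i h) = 1 := by rw [← map_mul, inv_mul_cancel, map_one]
    calc π (ι i h) * Ec j y g = π (ι i h) * Ec j y g * (π (ι i h)⁻¹ * π (ι i h)) := by
          rw [e2, mul_one]
      _ = π (ι i h) * Ec j y g * π (ι i h)⁻¹ * π (ι i h) := by simp only [mul_assoc]
      _ = _ := by rw [e]

omit [∀ j, ProperSpace (k j)] in
/-- the injectivity of the joint projection -/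
theorem injP {q : ∀ j, Γ → GG (k j) (N j)} (hq : ∀ j, PH (q j))
    (hi : ∀ γ, (∀ j, sp (k j) (N j + 1) (q j γ) = 1) → γ = 1) :
    Function.Injective (MonoidHom.pi fun j => qP (q j) (hq j)) := by
  refine (injective_iff_map_eq_one _).2 fun γ hγ => hi γ fun j => ?_
  exact congrFun hγ j

/-- the discreteness of the joint projection -/
theorem discP [Fintype J] {q : ∀ j, Γ → GG (k j) (N j)} (hq : ∀ j, PH (q j))
    (hf : ∀ C : ℝ, {γ : Γ | ∀ j, nm (q j γ) ≤ C}.Finite) (C : Set (∀ j, PG (k j) (N j + 1)))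
    (hC : IsCompact C) : {γ | (MonoidHom.pi fun j => qP (q j) (hq j)) γ ∈ C}.Finite := by
  have h1 : ∀ j, ∃ R : ℝ, ∀ g : GG (k j) (N j),
      sp (k j) (N j + 1) g ∈ (fun x : ∀ j, PG (k j) (N j + 1) => x j) '' C → nm g ≤ R := by
    intro j
    have hc := hC.image (continuous_apply j : Continuous fun x : ∀ j, PG (k j) (N j + 1) => x j)
    have h2 := H35.sp_proper (by omega) hc hc.isClosed
    have h3 : Continuous fun g : GG (k j) (N j) => nm g := by
      have h4 : Continuous fun g : GG (k j) (N j) => g.1 := continuous_subtype_val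
      exact H35.nmx_cont.comp h4
    obtain ⟨R, hR⟩ := (h2.image h3).bddAbove
    exact ⟨R, fun g hg => hR ⟨g, hg, rfl⟩⟩
  choose R hR using h1
  refine (hf (∑ j, |R j|)).subset fun γ hγ j => ?_
  refine (hR j (q j γ) ⟨_, hγ, rfl⟩).trans ((le_abs_self _).trans ?_)
  exact Finset.single_le_sum (f := fun j => |R j|) (fun i _ => abs_nonneg _) (Finset.mem_univ j)

end leg

section tv

open Vale.Agent.P092.SR Vale.Agent.P092.H160 Vale.Agent.P092.RC

variable {E : Type} [Group E] [TopologicalSpace E] [IsTopologicalGroup E] [LocallyCompactSpace E]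
  [SecondCountableTopology E] [T2Space E] [MeasurableSpace E] [BorelSpace E]
  {Γ : Subgroup E} [DiscreteTopology Γ] [MeasurableSpace (E ⧸ Γ)] [BorelSpace (E ⧸ Γ)]
  {ν : Measure (E ⧸ Γ)} [IsProbabilityMeasure ν] [Countable Γ]
  (hν : ∀ g : E, ν.map (fun x => g • x) = ν)
  {Λ : Type} [Group Λ] {α : Γ →* (Ell2 Λ →L[ℂ] Ell2 Λ)} (hα : Frame α)

theorem tve₁ : TVE (pic hν hα) (lam₁ ν α) (XX ν Λ ∪ Set.range (lam₂ ν α)) (Om ν Λ) := by
  rintro Y ⟨hY, hY1⟩ h
  exact H103.tv_gen hν hα (fun A hA => hY _ (Or.inl ⟨A, hA, rfl⟩)) hY1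
    (fun g => hY _ (Or.inr ⟨g, rfl⟩)) h

theorem tve₂ : TVE (pic hν hα) (lam₂ ν α) (XX ν Λ ∪ Set.range (lam₁ ν α)) (Om ν Λ) := by
  rintro Y ⟨hY, hY1⟩ h
  exact H103.tv_gen hν hα (fun A hA => hY _ (Or.inl ⟨A, hA, rfl⟩))
    (fun g => hY _ (Or.inr ⟨g, rfl⟩)) hY1 h

end tv

section nonc

variable {k : Type} [NontriviallyNormedField k] [ProperSpace k] {N : ℕ} {E : Type} [Group E]
  [TopologicalSpace E]

omit [ProperSpace k] in
theorem adm_eq {ι : GG k N →* E} {a a' : E →* PG k (N + 1)} (h : Adm ι a a') (g : GG k N) :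
    a (ι g) = sp k (N + 1) g := by
  refine H789.cmap_injective (funext fun i => ?_)
  exact h.comp g (H789.src k N i)

/-- admissible groups are not compact -/
theorem noncompact_of_adm {ι : GG k N →* E} {a a' : E →* PG k (N + 1)} (h : Adm ι a a') :
    NoncompactSpace E := by
  by_contra hcon
  haveI : CompactSpace E := by
    by_contra h0
    exact hcon (not_compactSpace_iff.1 h0)
  have h1 : IsCompact (Set.range a) := isCompact_range h.ca
  have h2 := H35.sp_proper (Nat.succ_ne_zero N) h1 h1.isClosed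
  have h3 : sp k (N + 1) ⁻¹' Set.range a = Set.univ := by
    ext g
    simp only [Set.mem_preimage, Set.mem_univ, iff_true]
    exact ⟨ι g, adm_eq h g⟩
  rw [h3] at h2
  haveI : CompactSpace (GG k N) := ⟨h2⟩
  have hN := h.hN
  have h4 : NoncompactSpace (GG k N) :=
    H34.PicC.sl_noncompact (i := (0 : Fin (N + 1))) (j := ⟨1, by omega⟩) (by
      intro h
      exact absurd (congrArg Fin.val h) (by norm_num))
  exact not_compactSpace_iff.2 h4 ⟨h2⟩

end nonc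

section triv

open Vale.Agent.P092.SR Vale.Agent.P092.H160

/-- the empty product -/
theorem coreE_of_subsingleton (E : Type) [Group E] [TopologicalSpace E] [Subsingleton E] :
    SN.CoreE E := by
  intro Γ _ _ Λ _ _ _ α _
  refine ⟨dl 1, norm_dl 1, fun g => ⟨1, 1, 1, norm_one, ?_⟩⟩
  have hg : g = 1 := Subsingleton.elim _ _
  rw [hg, map_one, map_one, map_one, one_smul]
  rfl

end triv

section core

variable {J : Type} {k : J → Type} [∀ j, NontriviallyNormedField (k j)] [∀ j, ProperSpace (k j)]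
  [∀ j, MeasurableSpace (k j)] {μ : ∀ j, Measure (k j)} {N : J → ℕ} {E : Type} [Group E]
  [TopologicalSpace E] [IsTopologicalGroup E] [LocallyCompactSpace E] [SecondCountableTopology E]
  [T2Space E]

/-- **The core statement for a product**, from the joints. -/
theorem coreP_of [Fintype J] [NoncompactSpace E] {ι : ∀ j, GG (k j) (N j) →* E}
    {a a' : ∀ j, E →* PG (k j) (N j + 1)} (hA : AdmP ι a a') (h1 : ∀ j, LegComm (k j) (μ j))
    (h4 : ∀ j, ClsStmt (k j) (μ j)) (hX : ∀ i j, i ≠ j → X1Stmt (k i) (k j) (μ i))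
    (hXC : XCPStmt k N) (hEx : ExPStmt k μ N ι a a') : SN.CoreE E := by
  intro Γ hΓ hicc Λ _ _ hΛ α hα
  letI : MeasurableSpace E := borel _
  haveI : BorelSpace E := ⟨rfl⟩
  haveI hd : DiscreteTopology Γ := hΓ.disc
  haveI hc : Countable Γ := H790.countable_of_discrete (E := E) Γ
  letI : MeasurableSpace (E ⧸ Γ) := borel _
  haveI : BorelSpace (E ⧸ Γ) := ⟨rfl⟩
  obtain ⟨ν, hP', hν⟩ := H515.IsLattice.exists_prob (Λ := Γ) ⟨hΓ.disc, hΓ.covol⟩
  have p2 := H34.PicC.pic2 hν hα hΛ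
  obtain ⟨w, m₁, m₂, q₁, q₂, E₁, F₁, E₂, F₂, l1, l2, i1, i2, d1, d2⟩ :=
    hEx (Γ := Γ) hν hΓ hicc hΛ hα
  obtain ⟨σ₁, Q₁, c1, k1⟩ := legP hA l1 h1 h4 hX
  obtain ⟨σ₂, Q₂, c2, k2⟩ := legP hA l2 h1 h4 hX
  have hX := hXC ι a a' (RC.pic hν hα) (RC.lam₁ ν α) (RC.lam₂ ν α) (RC.XX ν Λ) (RC.Om ν Λ) q₁ q₂
    E₁ E₂ σ₁ σ₂ Q₁ Q₂ hA p2 (tve₁ hν hα) (tve₂ hν hα) (fun j => (l1 j).ph) (fun j => (l2 j).ph) d1 d2 c1 c2 k1 k2
  exact mono_of_prod hν hα (fun j => fleg_of (l1 j).ph (c1 j))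
    (fun j => fleg_of (l2 j).ph (c2 j)) k1 k2 (injP _ i1) (injP _ i2) (discP _ d1) (discP _ d2) hX

end core

end Vale.Agent.P092.SNP
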