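import Vale.Agent.P092.SNP.Prod
import Vale.Agent.P092.SN.Top

/-!
P092, Team N, products (helper305): the top of the assembly.
-/

set_option linter.all false

open scoped InnerProductSpace
open ContinuousLinearMap Matrix

namespace Vale.Agent.P092.SNP

open Vale.Agent.P092.H160 Vale.Agent.P092.SR Vale.Agent.P092.H515.St
open Vale.Agent.P092.SR.St Vale.Agent.P092.SNP.St

/-- The core statement, all local fields. -/
def CoreA : Prop :=
  ∀ (I : Type) [Fintype I] (E : I → Type) [∀ j, Group (E j)] [∀ j, TopologicalSpace (E j)],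
    (∀ j, TypeA (E j)) → SN.CoreE (∀ j, E j)

/-- The core statement, one field. -/
def CoreK (k : Type) [NontriviallyNormedField k] : Prop :=
  ∀ (I : Type) [Fintype I] (n : I → ℕ) (E : I → Type) [∀ j, Group (E j)]
    [∀ j, TopologicalSpace (E j)], (∀ j, 3 ≤ n j) → (∀ j, TypeK (n j) k (E j)) →
    SN.CoreE (∀ j, E j)

theorem final1_of (h : CoreA) : SNP.St.Final1 := by
  intro Γ _ hΓ
  obtain ⟨hicc, I, _, E, _, _, i, ht, hi, hl⟩ := hΓ
  exact SN.super_of_coreE (h I E ht) hicc i hi hl

theorem final1K_of (h : ∀ (k : Type) [NontriviallyNormedField k] [ProperSpace k], LocK k →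
    CoreK k) : SNP.St.Final1K := by
  intro k _ _ hk Γ _ hΓ
  obtain ⟨hicc, I, _, n, E, _, _, i, hn, ht, hi, hl⟩ := hΓ
  exact SN.super_of_coreE (h k hk I n E hn ht) hicc i hi hl

/-! ### One factor -/

section one

variable {Γ G : Type} [Group Γ] [Group G] [TopologicalSpace G]

/-- the product with one factor -/
def oneE (G : Type) [Group G] : G ≃* (∀ _ : Unit, G) where
  toFun g := fun _ => g
  invFun f := f ()
  left_inv _ := rfl
  right_inv _ := rfl
  map_mul' _ _ := rfl

theorem isLattice_one (ht : GoodT G) (i : Γ →* G) (hl : H515.St.IsLattice i.range) :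
    H515.St.IsLattice ((oneE G).toMonoidHom.comp i).range := by
  have := ht.top
  have := ht.lc
  have := ht.sc
  have := ht.t2
  have h3 := (lat_st hl).map_equiv (oneE G) (continuous_pi fun _ => continuous_id)
    (continuous_apply (A := fun _ : Unit => G) ())
  rw [MonoidHom.range_comp]
  exact st_lat h3

theorem latticeA_one (hicc : ICC Γ) (i : Γ →* G) (ht : TypeA G) (hi : Function.Injective i)
    (hl : H515.St.IsLattice i.range) : LatticeA Γ :=
  ⟨hicc, Unit, inferInstance, fun _ => G, inferInstance, inferInstance,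
    (oneE G).toMonoidHom.comp i, fun _ => ht, (oneE G).injective.comp hi,
    isLattice_one (good_of_typeA ht) i hl⟩

theorem latticeK_one {k : Type} [NontriviallyNormedField k] [ProperSpace k] (hk : LocK k) {n : ℕ}
    (hn : 3 ≤ n) (hicc : ICC Γ) (i : Γ →* G) (ht : TypeK n k G) (hi : Function.Injective i)
    (hl : H515.St.IsLattice i.range) : LatticeK k Γ :=
  ⟨hicc, Unit, inferInstance, fun _ => n, fun _ => G, inferInstance, inferInstance,
    (oneE G).toMonoidHom.comp i, fun _ => hn, fun _ => ht, (oneE G).injective.comp hi,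
    isLattice_one (good_of_typeA (typeA_of_typeK hk hn ht)) i hl⟩

end one

theorem locK_real : LocK ℝ := LocK.real (RingEquiv.refl ℝ) fun _ => rfl

/-- Subgroups of finite index of `SL_n(ℤ)` without `-1`. -/
theorem latticeR_finiteIndex {n : ℕ} (hn : 3 ≤ n) (Γ : Subgroup (SpecialLinearGroup (Fin n) ℤ))
    [Γ.FiniteIndex] (hΓ : ∀ g ∈ Γ, (g : Matrix (Fin n) (Fin n) ℤ) ≠ -1) : LatticeK ℝ Γ := by
  obtain ⟨hicc, n', i, hn', hi, hl⟩ := SN.slLattice_of_finiteIndex hn Γ hΓ
  exact latticeK_one locK_real hn' hicc i TypeK.sl hi hl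

end Vale.Agent.P092.SNP
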