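import Vale.Agent.P092.SNP.Main
import Vale.Agent.P092.SNP.Top
import Vale.Agent.P092.H387.Ad2
import Vale.Agent.P092.H387.Pl2

/-!
P092, TEAM N, products (helper943): the source group `E = ∏ PSL_(N j + 1)(k)`, and the final
statement `SNP.St.Final1K` (all ICC lattices in finite products of groups `SL_n(k)`, `PSL_n(k)`, one
local field `k`, `n ≥ 3`) from the joints.
-/

set_option linter.all false

open scoped InnerProductSpace ENNReal LinearAlgebra.Projectivization ZeroAtInfty
open Filter Topology ContinuousLinearMap MeasureTheory TopologicalSpace Matrix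

namespace Vale.Agent.P092.SNP

open Vale.Agent.P092.RC (Cm TRN Moore GG PG YY y0 ct)
open Vale.Agent.P092.H35 (sp mkP)
open Vale.Agent.P092.SN
open Vale.Agent.P092.SR.St Vale.Agent.P092.SNP.St Vale.Agent.P092.H515.St
open Vale.Agent.P092.H387.Ad (PS spq adm_psl adm_pi prP prP_central prP_surj prP_cont prP_proper
  inj_comp_icc lat_comp finite_center_sl)
open Vale.Agent.P092.H644.PGr (tauP)

section inst

variable {J : Type} [DecidableEq J] (k : J → Type) [∀ j, NontriviallyNormedField (k j)]
  (N : J → ℕ)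

/-- `∏ PSL_(N j + 1)(k j)` -/
abbrev EP : Type := ∀ j, PS (N j + 1) (k j)

/-- `SL_(N j + 1)(k j) → ∏ PSL_(N i + 1)(k i)` -/
noncomputable def iP (j : J) : GG (k j) (N j) →* EP k N :=
  (MonoidHom.mulSingle (fun i => PS (N i + 1) (k i)) j).comp
    (QuotientGroup.mk' (Subgroup.center (GG (k j) (N j))))

/-- the action on the points of the factor `j` -/
noncomputable def aP (j : J) : EP k N →* PG (k j) (N j + 1) :=
  (spq (k j) (N j) (Subgroup.center (GG (k j) (N j))) le_rfl).comp
    (Pi.evalMonoidHom (fun i => PS (N i + 1) (k i)) j)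

/-- the action on the hyperplanes of the factor `j` -/
noncomputable def aP' (j : J) : EP k N →* PG (k j) (N j + 1) :=
  ((tauP (k j) (N j + 1)).comp
    (spq (k j) (N j) (Subgroup.center (GG (k j) (N j))) le_rfl)).comp
    (Pi.evalMonoidHom (fun i => PS (N i + 1) (k i)) j)

theorem iP_ne {i j : J} (hij : i ≠ j) (h : GG (k i) (N i)) : iP k N i h j = 1 := by
  change (MonoidHom.mulSingle (fun i => PS (N i + 1) (k i)) i (QuotientGroup.mk' _ h)) j = 1
  rw [MonoidHom.mulSingle_apply]
  exact Pi.mulSingle_eq_of_ne hij.symm _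

theorem admP_PS [∀ j, ProperSpace (k j)] (hk : ∀ j, H933.LocK (k j)) (hN : ∀ j, 2 ≤ N j) :
    AdmP (iP k N) (aP k N) (aP' k N) where
  adm j := adm_pi (fun _ => inferInstance) j (adm_psl (hk j) (hN j) _ le_rfl)
  triv i j hij h x := by
    have e : aP k N j (iP k N i h) = 1 := by
      change spq (k j) (N j) (Subgroup.center (GG (k j) (N j))) le_rfl (iP k N i h j) = 1
      rw [iP_ne k N hij, map_one]
    rw [e, one_smul]
  triv' i j hij h x := by
    have e : aP' k N j (iP k N i h) = 1 := by
      change tauP (k j) (N j + 1)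
        (spq (k j) (N j) (Subgroup.center (GG (k j) (N j))) le_rfl (iP k N i h j)) = 1
      rw [iP_ne k N hij, map_one, map_one]
    rw [e, one_smul]

end inst

/-- **[P-EX]** for `E = ∏ PSL_(N j + 1)(k)`, one local field -/
def ExPS (k : Type) [NontriviallyNormedField k] [ProperSpace k] [MeasurableSpace k]
    (μ : Measure k) : Prop :=
  ∀ {J : Type} [Fintype J] [DecidableEq J] (N : J → ℕ), (∀ j, 2 ≤ N j) →
    ExPStmt (fun _ : J => k) (fun _ => μ) N (iP (fun _ : J => k) N) (aP (fun _ : J => k) N)
      (aP' (fun _ : J => k) N)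

/-- the core statement for `∏ PSL_(N j + 1)(k)` -/
theorem coreE_PS {k : Type} [NontriviallyNormedField k] [ProperSpace k] [MeasurableSpace k]
    {μ : Measure k} (hk : H933.LocK k) (h1 : LegComm k μ) (h4 : ClsStmt k μ)
    (hX : X1Stmt k k μ) (hEx : ExPS k μ) {J : Type} [Fintype J] [DecidableEq J] {N : J → ℕ}
    (hXC : XCPStmt (fun _ : J => k) N) (hN : ∀ j, 2 ≤ N j) :
    SN.CoreE (EP (fun _ : J => k) N) := by
  rcases isEmpty_or_nonempty J with hJ | ⟨⟨j₀⟩⟩
  · haveI : Subsingleton (EP (fun _ : J => k) N) := ⟨fun x y => funext fun j => hJ.elim j⟩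
    exact coreE_of_subsingleton _
  · have hA := admP_PS (fun _ : J => k) N (fun _ => hk) hN
    haveI : NoncompactSpace (EP (fun _ : J => k) N) := noncompact_of_adm (hA.adm j₀)
    exact coreP_of hA (fun _ => h1) (fun _ => h4) (fun _ _ _ => hX) hXC (hEx N hN)

/-! ### Lattices in products over one field -/

/-- a group with a proper central quotient `PSL_n(k)` -/
def NFk (n : ℕ) (k : Type) [NontriviallyNormedField k] (E : Type) [Group E]
    [TopologicalSpace E] : Prop :=
  IsTopologicalGroup E ∧ T2Space E ∧ ∃ p : E →* PS n k, Continuous p ∧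
      Function.Surjective p ∧ (∀ C : Set (PS n k), IsCompact C → IsCompact (p ⁻¹' C)) ∧
      ∀ e, p e = 1 → ∀ x, x * e = e * x

theorem nfk_of {n : ℕ} {k : Type} [NontriviallyNormedField k] [ProperSpace k] {E : Type} [Group E]
    [TopologicalSpace E] (h : TypeK n k E) : NFk n k E := by
  cases h with
  | sl => exact ⟨inferInstance, inferInstance, QuotientGroup.mk' _, continuous_quotient_mk',
      QuotientGroup.mk'_surjective _,
      fun C hC => H793.proper_mk _ (finite_center_sl n k).isCompact C hC,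
      fun e he x => (Subgroup.mem_center_iff.1 ((QuotientGroup.eq_one_iff e).1 he)) x⟩
  | psl => exact ⟨inferInstance, inferInstance, MonoidHom.id _, continuous_id,
      Function.surjective_id, fun C hC => hC, fun e he x => by
        have he : e = 1 := he
        rw [he, mul_one, one_mul]⟩

/-- a lattice in a product of groups `SL_n(k)`, `PSL_n(k)` is a lattice in a product of groups
`PSL_n(k)` -/
theorem latK_normal {k : Type} [NontriviallyNormedField k] [ProperSpace k] {Γ : Type} [Group Γ]
    (h : LatticeK k Γ) : ICC Γ ∧ ∃ (I : Type) (_ : Fintype I) (n : I → ℕ)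
      (i : Γ →* ∀ j, PS (n j) k), (∀ j, 3 ≤ n j) ∧ Function.Injective i ∧ IsLattice i.range := by
  obtain ⟨hicc, I, _, n, E, _, _, i, hn, ht, hi, hl⟩ := h
  haveI := fun j => (nfk_of (ht j)).1
  haveI := fun j => (nfk_of (ht j)).2.1
  choose p hc hs hp hz using fun j => (nfk_of (ht j)).2.2
  exact ⟨hicc, I, inferInstance, n, (prP p).comp i, hn, inj_comp_icc hicc hi _ (prP_central hz),
    lat_comp hl _ (prP_cont hc) (prP_surj hs) (prP_proper hc hp)⟩

/-- **The final statement for products**, one local field, from the joints. -/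
theorem final1K (h : ∀ (k : Type) [NontriviallyNormedField k] [ProperSpace k] [MeasurableSpace k]
    [BorelSpace k] (μ : Measure k) [μ.IsAddHaarMeasure], H933.LocK k →
    LegComm k μ ∧ ClsStmt k μ ∧ X1Stmt k k μ ∧ ExPS k μ ∧
      ∀ {J : Type} [Fintype J] (N : J → ℕ), XCPStmt (fun _ : J => k) N) : SNP.St.Final1K := by
  intro k _ _ hk Γ _ hΓ
  obtain ⟨hicc, I, _, n, i, hn, hi, hl⟩ := latK_normal hΓ
  letI : MeasurableSpace k := borel k
  haveI : BorelSpace k := ⟨rfl⟩
  classical
  obtain ⟨h1, h2, h3, h4, h5⟩ := h k (Measure.addHaar : Measure k) (SN.lk hk)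
  obtain ⟨N, rfl⟩ : ∃ N : I → ℕ, n = fun j => N j + 1 :=
    ⟨fun j => n j - 1, funext fun j => by
      have h3 := hn j
      change n j = n j - 1 + 1
      omega⟩
  exact SN.super_of_coreE (coreE_PS (SN.lk hk) h1 h2 h3 h4 (h5 N)
    (fun j => by
      have h3 : 3 ≤ N j + 1 := hn j
      omega)) hicc i hi hl

end Vale.Agent.P092.SNP
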