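import Vale.Agent.P092.SNP.Fin
import Vale.Agent.P092.H325.NXs
import Vale.Agent.P092.H584.X1

/-!
P092, TEAM N, products (helper943): `XCPStmt` (helper325) and `X1Stmt` (helper584) are theorems; the
final statement for products needs only the joints of one factor and `ExPS`.
-/

set_option linter.all false

open scoped InnerProductSpace ENNReal LinearAlgebra.Projectivization ZeroAtInfty
open Filter Topology ContinuousLinearMap MeasureTheory TopologicalSpace Matrix

namespace Vale.Agent.P092.SNP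

open Vale.Agent.P092.SN

/-- **[P-XC]** -/
theorem xcpStmt {J : Type} [Fintype J] (k : J → Type) [∀ j, NontriviallyNormedField (k j)]
    [∀ j, ProperSpace (k j)] (N : J → ℕ) : XCPStmt k N := by
  intro E Γ K _ _ _ _ _ _ _ ι a a' π lam₁ lam₂ X Ω q₁ q₂ E₁ E₂ σ₁ σ₂ Q₁ Q₂ hA hP t1 t2 p1 p2
    d1 d2 c1 c2 k1 k2 i j ψ φ
  exact H325.pXcN hA.adm (fun j' j hj h b => hA.triv j' j hj h b) hP.leg₁ t1 hP.leg₂.adjL p1 p2 d1
    c1 k1 c2 k2 i j ψ φ

/-- **(X1)** -/
theorem x1Stmt (k k' : Type) [NontriviallyNormedField k] [ProperSpace k]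
    [NontriviallyNormedField k'] [ProperSpace k'] [MeasurableSpace k] [BorelSpace k]
    (μ : Measure k) [IsFiniteMeasureOnCompacts μ] [μ.IsOpenPosMeasure] (hk' : H933.LocK k') :
    X1Stmt k k' μ := by
  intro N N' E Γ K _ _ _ _ _ _ w ι a a' π lam W Ω m q Z Ec F q' E' hL hq' hb hcm hπ hcov c M hcM
    u h f huh
  exact H584.X.x1 hk' hL hb hcm hπ hcov c M u f h hcM huh

/-- **The final statement for products**, one local field, from the joints of one factor. -/
theorem final1K_of3 (h : ∀ (k : Type) [NontriviallyNormedField k] [ProperSpace k]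
    [MeasurableSpace k] [BorelSpace k] (μ : Measure k) [μ.IsAddHaarMeasure], H933.LocK k →
    LegComm k μ ∧ ClsStmt k μ ∧ ExPS k μ) : SNP.St.Final1K :=
  final1K fun k _ _ _ _ μ _ hk =>
    ⟨(h k μ hk).1, (h k μ hk).2.1, x1Stmt k k μ hk, (h k μ hk).2.2,
      fun N => xcpStmt _ N⟩

end Vale.Agent.P092.SNP
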