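import Vale.Agent.P092.H305.PX.Fin
import Vale.Agent.P092.SNP.Glue
import Vale.Agent.P092.SN.Fin

/-!
P092, TEAM N, products: `SNP.St.Final1K` (all ICC lattices of all finite products of groups
`SL_n(k)`, `PSL_n(k)`, `n ≥ 3`, over one local field).
-/

set_option linter.all false

namespace Vale.Agent.P092.SNP

theorem final1K_all : St.Final1K :=
  final1K_of3 fun _ _ _ _ _ _ _ hk =>
    ⟨SN.legComm hk, SN.ClsF.clsStmt hk, H305.PX.exPS hk⟩

end Vale.Agent.P092.SNP
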