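import Vale.Agent.P092.SNP.St
import Vale.Agent.P092.H515.LatSl

/-!
P092, Team N, products (helper305): the groups `SL_n(k)`, `PSL_n(k)`, `PGL_n(k)` are locally compact
second countable groups; products and subgroups of finite index of lattices; the class `LatticeA`
is closed under products and subgroups of finite index.
-/

set_option linter.all false

open MeasureTheory MeasureTheory.Measure Set Filter Topology Matrix
open scoped ENNReal

namespace Vale.Agent.P092.SNP

open Vale.Agent.P092.SR.St Vale.Agent.P092.SNP.St Vale.Agent.P092.H515.St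

/-! ### Topology of the factors -/

/-- locally compact second countable Hausdorff groups -/
structure GoodT (E : Type) [Group E] [TopologicalSpace E] : Prop where
  top : IsTopologicalGroup E
  lc : LocallyCompactSpace E
  sc : SecondCountableTopology E
  t2 : T2Space E

section tp

variable {E : Type} [Group E] [TopologicalSpace E]

theorem GoodT.quo (h : GoodT E) : GoodT (E ⧸ Subgroup.center E) := by
  have := h.top
  have := h.lc
  have := h.sc
  have := h.t2
  have hc : IsClosed (Subgroup.center E : Set E) := by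
    rw [Subgroup.coe_center, ← Set.centralizer_univ]
    exact Set.isClosed_centralizer _
  exact ⟨inferInstance, inferInstance, inferInstance, inferInstance⟩

variable {k : Type} [NontriviallyNormedField k] [ProperSpace k] {n : ℕ}

theorem goodT_sl : GoodT (SpecialLinearGroup (Fin n) k) := by
  have h1 : LocallyCompactSpace (Matrix (Fin n) (Fin n) k) :=
    inferInstanceAs (LocallyCompactSpace (Fin n → Fin n → k))
  have h2 : SecondCountableTopology (Matrix (Fin n) (Fin n) k) :=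
    inferInstanceAs (SecondCountableTopology (Fin n → Fin n → k))
  have he := SpecialLinearGroup.isClosedEmbedding_val (n := Fin n) (R := k)
  exact ⟨inferInstance, he.locallyCompactSpace, he.isEmbedding.secondCountableTopology,
    he.isEmbedding.t2Space⟩

theorem goodT_gl : GoodT (GeneralLinearGroup (Fin n) k) := by
  have h1 : LocallyCompactSpace (Matrix (Fin n) (Fin n) k) :=
    inferInstanceAs (LocallyCompactSpace (Fin n → Fin n → k))
  have h0 : SecondCountableTopology (Matrix (Fin n) (Fin n) k) :=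
    inferInstanceAs (SecondCountableTopology (Fin n → Fin n → k))
  have h2 : SecondCountableTopology (Matrix (Fin n) (Fin n) k)ᵐᵒᵖ :=
    MulOpposite.opHomeomorph.symm.secondCountableTopology
  have h3 : SecondCountableTopology (GeneralLinearGroup (Fin n) k) :=
    Units.isEmbedding_embedProduct.secondCountableTopology
  exact ⟨inferInstance, inferInstanceAs (LocallyCompactSpace (Matrix (Fin n) (Fin n) k)ˣ), h3,
    inferInstanceAs (T2Space (Matrix (Fin n) (Fin n) k)ˣ)⟩

end tp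

theorem good_of_typeA {E : Type} [Group E] [TopologicalSpace E] (h : TypeA E) : GoodT E := by
  cases h with
  | sl n k hk hn => exact goodT_sl
  | psl n k hk hn => exact goodT_sl.quo

/-! ### Products and subgroups of finite index of lattices -/

section lat

variable {E₁ E₂ : Type} [Group E₁] [TopologicalSpace E₁] [IsTopologicalGroup E₁]
  [LocallyCompactSpace E₁] [SecondCountableTopology E₁] [T2Space E₁] [Group E₂]
  [TopologicalSpace E₂] [IsTopologicalGroup E₂] [LocallyCompactSpace E₂]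
  [SecondCountableTopology E₂] [T2Space E₂]

/-- The product of two lattices. -/
theorem isLattice_prod {Λ₁ : Subgroup E₁} {Λ₂ : Subgroup E₂} (h₁ : H515.IsLattice Λ₁)
    (h₂ : H515.IsLattice Λ₂) : H515.IsLattice (Λ₁.prod Λ₂) := by
  borelize E₁
  borelize E₂
  obtain ⟨μ₁, hμ₁⟩ : ∃ μ : Measure E₁, μ = haar := ⟨_, rfl⟩
  obtain ⟨μ₂, hμ₂⟩ : ∃ μ : Measure E₂, μ = haar := ⟨_, rfl⟩
  haveI : μ₁.IsHaarMeasure := by rw [hμ₁]; infer_instance
  haveI : μ₂.IsHaarMeasure := by rw [hμ₂]; infer_instance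
  haveI := H515.IsLattice.rightInv μ₁ h₁
  haveI := H515.IsLattice.rightInv μ₂ h₂
  haveI := h₁.disc
  haveI := h₂.disc
  obtain ⟨F₁, -, hF₁, -, hc₁, -⟩ := H515.IsLattice.exists_fdom_right μ₁ h₁
  obtain ⟨F₂, -, hF₂, -, hc₂, -⟩ := H515.IsLattice.exists_fdom_right μ₂ h₂
  haveI : DiscreteTopology (Λ₁.prod Λ₂) := by
    refine DiscreteTopology.of_continuous_injective
      (f := fun x : Λ₁.prod Λ₂ => ((⟨x.1.1, x.2.1⟩, ⟨x.1.2, x.2.2⟩) : Λ₁ × Λ₂)) ?_ ?_
    · exact ((continuous_fst.comp continuous_subtype_val).subtype_mk _).prodMk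
        ((continuous_snd.comp continuous_subtype_val).subtype_mk _)
    · intro x y h
      have h1 := congrArg (fun z : Λ₁ × Λ₂ => (z.1 : E₁)) h
      have h2 := congrArg (fun z : Λ₁ × Λ₂ => (z.2 : E₂)) h
      exact Subtype.ext (Prod.ext h1 h2)
  refine H515.isLattice_of_cover (Λ₁.prod Λ₂) (μ₁.prod μ₂) (F := F₁ ×ˢ F₂) ?_ ?_
  · rw [Measure.prod_prod]
    exact ENNReal.mul_lt_top hF₁ hF₂
  · rintro ⟨x, y⟩
    obtain ⟨v, hv, -⟩ := hc₁ x
    obtain ⟨w, hw, -⟩ := hc₂ y
    exact ⟨⟨(v.1, w.1), v.2, w.2⟩, hv, hw⟩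

/-- Subgroups of finite index of lattices. -/
theorem isLattice_fi {Λ Δ : Subgroup E₁} (h : H515.IsLattice Λ) (hΔ : Δ ≤ Λ)
    (hfi : (Δ.subgroupOf Λ).FiniteIndex) : H515.IsLattice Δ := by
  borelize E₁
  obtain ⟨μ, hμ⟩ : ∃ μ : Measure E₁, μ = haar := ⟨_, rfl⟩
  haveI : μ.IsHaarMeasure := by rw [hμ]; infer_instance
  haveI := H515.IsLattice.rightInv μ h
  haveI := h.disc
  obtain ⟨F, -, hF, -, hc, -⟩ := H515.IsLattice.exists_fdom_right μ h
  haveI : DiscreteTopology Δ := by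
    refine DiscreteTopology.of_continuous_injective
      (f := fun x : Δ => (⟨x.1, hΔ x.2⟩ : Λ)) (continuous_subtype_val.subtype_mk _) ?_
    intro x y hxy
    exact Subtype.ext (congrArg (fun z : Λ => (z : E₁)) hxy)
  haveI : Finite (Λ ⧸ Δ.subgroupOf Λ) := Subgroup.finite_quotient_of_finiteIndex
  haveI := Fintype.ofFinite (Λ ⧸ Δ.subgroupOf Λ)
  -- representatives
  let s : Λ ⧸ Δ.subgroupOf Λ → Λ := fun q => q.out
  refine H515.isLattice_of_cover Δ μ
    (F := ⋃ q : Λ ⧸ Δ.subgroupOf Λ, (fun x => x * ((s q)⁻¹ : Λ).1) ⁻¹' F) ?_ fun x => ?_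
  · refine (measure_iUnion_le _).trans_lt ?_
    rw [tsum_fintype]
    refine ENNReal.sum_lt_top.2 fun q _ => ?_
    rw [measure_preimage_mul_right]
    exact hF
  · obtain ⟨v, hv, -⟩ := hc x
    have h1 : (QuotientGroup.mk (s (QuotientGroup.mk v⁻¹)) : Λ ⧸ Δ.subgroupOf Λ) =
        QuotientGroup.mk v⁻¹ := Quotient.out_eq' _
    have h2 : (s (QuotientGroup.mk v⁻¹))⁻¹ * v⁻¹ ∈ Δ.subgroupOf Λ := QuotientGroup.eq.1 h1
    refine ⟨⟨_, Δ.inv_mem (Subgroup.mem_subgroupOf.1 h2)⟩, mem_iUnion.2 ⟨QuotientGroup.mk v⁻¹, ?_⟩⟩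
    have h3 : x * (((s (QuotientGroup.mk v⁻¹))⁻¹ * v⁻¹ : Λ) : E₁)⁻¹ *
        ((s (QuotientGroup.mk v⁻¹))⁻¹ : Λ).1 = x * v := by
      push_cast
      group
    show x * (((s (QuotientGroup.mk v⁻¹))⁻¹ * v⁻¹ : Λ) : E₁)⁻¹ *
        ((s (QuotientGroup.mk v⁻¹))⁻¹ : Λ).1 ∈ F
    rw [h3]
    exact hv

end lat

/-! ### ICC -/

theorem icc_prod {Γ₁ Γ₂ : Type} [Group Γ₁] [Group Γ₂] (h₁ : ICC Γ₁) (h₂ : ICC Γ₂) :
    ICC (Γ₁ × Γ₂) := by
  rintro ⟨a, b⟩ hab
  by_cases ha : a = 1
  · have hb : b ≠ 1 := by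
      rintro rfl
      exact hab (by rw [ha]; rfl)
    refine ((h₂ b hb).image (f := fun y => (a, y)) fun x _ y _ h => (Prod.ext_iff.1 h).2).mono ?_
    rintro _ ⟨_, ⟨h, rfl⟩, rfl⟩
    exact ⟨(1, h), by simp⟩
  · refine ((h₁ a ha).image (f := fun y => (y, b)) fun x _ y _ h => (Prod.ext_iff.1 h).1).mono ?_
    rintro _ ⟨_, ⟨h, rfl⟩, rfl⟩
    exact ⟨(h, 1), by simp⟩

/-- Subgroups of finite index of ICC groups are ICC. -/
theorem icc_fi {Γ : Type} [Group Γ] (h : ICC Γ) (Δ : Subgroup Γ) (hfi : Δ.FiniteIndex) : ICC Δ := by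
  intro g hg hfin
  have hg' : (g : Γ) ≠ 1 := fun h => hg (Subtype.ext h)
  haveI : Finite (Γ ⧸ Δ) := Subgroup.finite_quotient_of_finiteIndex
  refine h g hg' ?_
  have h1 : (⋃ q : Γ ⧸ Δ, (fun y : Δ => q.out * (y : Γ) * q.out⁻¹) ''
      {y : Δ | ∃ h, y = h * g * h⁻¹}).Finite := finite_iUnion fun q => hfin.image _
  refine h1.subset ?_
  rintro _ ⟨x, rfl⟩
  have h2 : (QuotientGroup.mk (QuotientGroup.mk x : Γ ⧸ Δ).out : Γ ⧸ Δ) = QuotientGroup.mk x :=
    Quotient.out_eq' _
  have h3 : ((QuotientGroup.mk x : Γ ⧸ Δ).out)⁻¹ * x ∈ Δ := QuotientGroup.eq.1 h2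
  refine mem_iUnion.2 ⟨QuotientGroup.mk x, _, ⟨⟨_, h3⟩, rfl⟩, ?_⟩
  show _ * (_ * x * (g : Γ) * (_ * x)⁻¹) * _ = _
  group

/-! ### Products over disjoint unions -/

section sum

variable {I₁ I₂ : Type}

/-- the factors of a disjoint union -/
def SumF (E₁ : I₁ → Type) (E₂ : I₂ → Type) : I₁ ⊕ I₂ → Type
  | .inl j => E₁ j
  | .inr j => E₂ j

variable (E₁ : I₁ → Type) (E₂ : I₂ → Type) [∀ j, Group (E₁ j)] [∀ j, Group (E₂ j)]
  [∀ j, TopologicalSpace (E₁ j)] [∀ j, TopologicalSpace (E₂ j)]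

instance sumGroup : ∀ j, Group (SumF E₁ E₂ j)
  | .inl j => inferInstanceAs (Group (E₁ j))
  | .inr j => inferInstanceAs (Group (E₂ j))

instance sumTop : ∀ j, TopologicalSpace (SumF E₁ E₂ j)
  | .inl j => inferInstanceAs (TopologicalSpace (E₁ j))
  | .inr j => inferInstanceAs (TopologicalSpace (E₂ j))

/-- the product over a disjoint union -/
def sumE : (∀ j, E₁ j) × (∀ j, E₂ j) ≃* ∀ j, SumF E₁ E₂ j where
  toFun p := fun j => match j with
    | .inl j => p.1 j
    | .inr j => p.2 j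
  invFun f := (fun j => f (.inl j), fun j => f (.inr j))
  left_inv p := rfl
  right_inv f := by
    funext j
    cases j <;> rfl
  map_mul' p q := by
    funext j
    cases j <;> rfl

theorem sumE_cont : Continuous (sumE E₁ E₂) := by
  refine continuous_pi fun j => ?_
  cases j with
  | inl j => exact (continuous_apply j).comp continuous_fst
  | inr j => exact (continuous_apply j).comp continuous_snd

theorem sumE_cont_symm : Continuous (sumE E₁ E₂).symm :=
  (continuous_pi fun j => continuous_apply (A := SumF E₁ E₂) (Sum.inl j)).prodMk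
    (continuous_pi fun j => continuous_apply (A := SumF E₁ E₂) (Sum.inr j))

end sum

/-! ### The class `LatticeA` -/

theorem st_lat {E : Type} [Group E] [TopologicalSpace E] {Λ : Subgroup E}
    (h : H515.IsLattice Λ) : H515.St.IsLattice Λ := ⟨h.disc, h.covol⟩

theorem lat_st {E : Type} [Group E] [TopologicalSpace E] {Λ : Subgroup E}
    (h : H515.St.IsLattice Λ) : H515.IsLattice Λ := ⟨h.disc, h.covol⟩

/-- Products of two ICC lattices of the class. -/
theorem latticeA_prod {Γ₁ Γ₂ : Type} [Group Γ₁] [Group Γ₂] (h₁ : LatticeA Γ₁)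
    (h₂ : LatticeA Γ₂) : LatticeA (Γ₁ × Γ₂) := by
  obtain ⟨c₁, I₁, _, E₁, _, _, i₁, t₁, n₁, l₁⟩ := h₁
  obtain ⟨c₂, I₂, _, E₂, _, _, i₂, t₂, n₂, l₂⟩ := h₂
  have := fun j => (good_of_typeA (t₁ j)).top
  have := fun j => (good_of_typeA (t₁ j)).lc
  have := fun j => (good_of_typeA (t₁ j)).sc
  have := fun j => (good_of_typeA (t₁ j)).t2
  have := fun j => (good_of_typeA (t₂ j)).top
  have := fun j => (good_of_typeA (t₂ j)).lc
  have := fun j => (good_of_typeA (t₂ j)).sc
  have := fun j => (good_of_typeA (t₂ j)).t2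
  have ht : ∀ j, TypeA (SumF E₁ E₂ j) := by
    rintro (j | j)
    · exact t₁ j
    · exact t₂ j
  have := fun j => (good_of_typeA (ht j)).top
  have := fun j => (good_of_typeA (ht j)).lc
  have := fun j => (good_of_typeA (ht j)).sc
  have := fun j => (good_of_typeA (ht j)).t2
  refine ⟨icc_prod c₁ c₂, I₁ ⊕ I₂, inferInstance, SumF E₁ E₂, inferInstance, inferInstance,
    (sumE E₁ E₂).toMonoidHom.comp (i₁.prodMap i₂), ht, ?_, ?_⟩
  · exact (sumE E₁ E₂).injective.comp (n₁.prodMap n₂)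
  · have h3 := (isLattice_prod (lat_st l₁) (lat_st l₂)).map_equiv (sumE E₁ E₂)
      (sumE_cont E₁ E₂) (sumE_cont_symm E₁ E₂)
    rw [MonoidHom.range_comp, MonoidHom.range_prodMap]
    exact st_lat h3

/-- Subgroups of finite index of ICC lattices of the class. -/
theorem latticeA_fi {Γ : Type} [Group Γ] (h : LatticeA Γ) (Δ : Subgroup Γ)
    (hfi : Δ.FiniteIndex) : LatticeA Δ := by
  obtain ⟨c, I, _, E, _, _, i, t, n, l⟩ := h
  have := fun j => (good_of_typeA (t j)).top
  have := fun j => (good_of_typeA (t j)).lc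
  have := fun j => (good_of_typeA (t j)).sc
  have := fun j => (good_of_typeA (t j)).t2
  refine ⟨icc_fi c Δ hfi, I, inferInstance, E, inferInstance, inferInstance, i.comp Δ.subtype, t,
    n.comp Subtype.val_injective, ?_⟩
  rw [MonoidHom.range_comp, Subgroup.range_subtype]
  refine st_lat (isLattice_fi (lat_st l) (by rintro _ ⟨x, -, rfl⟩; exact ⟨x, rfl⟩) ⟨?_⟩)
  change (Δ.map i).relIndex i.range ≠ 0
  rw [MonoidHom.range_eq_map, Subgroup.relIndex_map_map_of_injective _ _ n,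
    Subgroup.relIndex_top_right]
  exact hfi.index_ne_zero

/-! ### One field -/

section one

variable {k : Type} [NontriviallyNormedField k]

theorem typeA_of_typeK [ProperSpace k] (hk : LocK k) {n : ℕ} (hn : 3 ≤ n) {E : Type} [Group E]
    [TopologicalSpace E] (h : TypeK n k E) : TypeA E := by
  cases h with
  | sl => exact TypeA.sl n k hk hn
  | psl => exact TypeA.psl n k hk hn

theorem latticeA_of_latticeK [ProperSpace k] (hk : LocK k) {Γ : Type} [Group Γ]
    (h : LatticeK k Γ) : LatticeA Γ := by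
  obtain ⟨c, I, _, n, E, _, _, i, hn, t, hi, l⟩ := h
  exact ⟨c, I, inferInstance, E, inferInstance, inferInstance, i,
    fun j => typeA_of_typeK hk (hn j) (t j), hi, l⟩

theorem latticeK_prod [ProperSpace k] (hk : LocK k) {Γ₁ Γ₂ : Type} [Group Γ₁] [Group Γ₂]
    (h₁ : LatticeK k Γ₁) (h₂ : LatticeK k Γ₂) : LatticeK k (Γ₁ × Γ₂) := by
  obtain ⟨c₁, I₁, _, d₁, E₁, _, _, i₁, e₁, s₁, n₁, l₁⟩ := h₁
  obtain ⟨c₂, I₂, _, d₂, E₂, _, _, i₂, e₂, s₂, n₂, l₂⟩ := h₂
  have t₁ := fun j => typeA_of_typeK hk (e₁ j) (s₁ j)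
  have t₂ := fun j => typeA_of_typeK hk (e₂ j) (s₂ j)
  have := fun j => (good_of_typeA (t₁ j)).top
  have := fun j => (good_of_typeA (t₁ j)).lc
  have := fun j => (good_of_typeA (t₁ j)).sc
  have := fun j => (good_of_typeA (t₁ j)).t2
  have := fun j => (good_of_typeA (t₂ j)).top
  have := fun j => (good_of_typeA (t₂ j)).lc
  have := fun j => (good_of_typeA (t₂ j)).sc
  have := fun j => (good_of_typeA (t₂ j)).t2
  have ht : ∀ j, TypeK (Sum.elim d₁ d₂ j) k (SumF E₁ E₂ j) := by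
    rintro (j | j)
    · exact s₁ j
    · exact s₂ j
  have hd : ∀ j, 3 ≤ Sum.elim d₁ d₂ j := by
    rintro (j | j)
    · exact e₁ j
    · exact e₂ j
  have := fun j => (good_of_typeA (typeA_of_typeK hk (hd j) (ht j))).top
  have := fun j => (good_of_typeA (typeA_of_typeK hk (hd j) (ht j))).lc
  have := fun j => (good_of_typeA (typeA_of_typeK hk (hd j) (ht j))).sc
  have := fun j => (good_of_typeA (typeA_of_typeK hk (hd j) (ht j))).t2
  refine ⟨icc_prod c₁ c₂, I₁ ⊕ I₂, inferInstance, Sum.elim d₁ d₂, SumF E₁ E₂, inferInstance,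
    inferInstance, (sumE E₁ E₂).toMonoidHom.comp (i₁.prodMap i₂), hd, ht, ?_, ?_⟩
  · exact (sumE E₁ E₂).injective.comp (n₁.prodMap n₂)
  · have h3 := (isLattice_prod (lat_st l₁) (lat_st l₂)).map_equiv (sumE E₁ E₂)
      (sumE_cont E₁ E₂) (sumE_cont_symm E₁ E₂)
    rw [MonoidHom.range_comp, MonoidHom.range_prodMap]
    exact st_lat h3

theorem latticeK_fi [ProperSpace k] (hk : LocK k) {Γ : Type} [Group Γ] (h : LatticeK k Γ)
    (Δ : Subgroup Γ) (hfi : Δ.FiniteIndex) : LatticeK k Δ := by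
  obtain ⟨c, I, _, d, E, _, _, i, e, s, n, l⟩ := h
  have t := fun j => typeA_of_typeK hk (e j) (s j)
  have := fun j => (good_of_typeA (t j)).top
  have := fun j => (good_of_typeA (t j)).lc
  have := fun j => (good_of_typeA (t j)).sc
  have := fun j => (good_of_typeA (t j)).t2
  refine ⟨icc_fi c Δ hfi, I, inferInstance, d, E, inferInstance, inferInstance, i.comp Δ.subtype,
    e, s, n.comp Subtype.val_injective, ?_⟩
  rw [MonoidHom.range_comp, Subgroup.range_subtype]
  refine st_lat (isLattice_fi (lat_st l) (by rintro _ ⟨x, -, rfl⟩; exact ⟨x, rfl⟩) ⟨?_⟩)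
  change (Δ.map i).relIndex i.range ≠ 0
  rw [MonoidHom.range_eq_map, Subgroup.relIndex_map_map_of_injective _ _ n,
    Subgroup.relIndex_top_right]
  exact hfi.index_ne_zero

end one

end Vale.Agent.P092.SNP
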