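import Vale.Agent.P092.SR.St

/-!
P092, Team N, products (helper305, helper387): literal forms of the final statement.
Only definitions.
-/

open Vale.Agent.P092.H160.St Vale.Agent.P092.H103.St Vale.Agent.P092.H515.St Vale.Agent.P092.SR.St

namespace Vale.Agent.P092.SNP.St

/-- `E` is `SL_n(k)` or `PSL_n(k) = SL_n(k)/centre`, `n ≥ 3`, `k` a local field. -/
inductive TypeA : (E : Type) → [Group E] → [TopologicalSpace E] → Prop
  | sl (n : ℕ) (k : Type) [NontriviallyNormedField k] [ProperSpace k] (hk : LocK k) (hn : 3 ≤ n) :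
      TypeA (Matrix.SpecialLinearGroup (Fin n) k)
  | psl (n : ℕ) (k : Type) [NontriviallyNormedField k] [ProperSpace k] (hk : LocK k) (hn : 3 ≤ n) :
      TypeA (Matrix.SpecialLinearGroup (Fin n) k ⧸
        Subgroup.center (Matrix.SpecialLinearGroup (Fin n) k))

/-- `Γ` is an ICC lattice (reducible or not) in a finite product of groups `SL_n(k)`, `PSL_n(k)`,
`n ≥ 3`, `k` a local field. -/
def LatticeA (Γ : Type) [Group Γ] : Prop :=
  ICC Γ ∧ ∃ (I : Type) (_ : Fintype I) (E : I → Type) (_ : ∀ j, Group (E j))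
    (_ : ∀ j, TopologicalSpace (E j)) (i : Γ →* ∀ j, E j),
    (∀ j, TypeA (E j)) ∧ Function.Injective i ∧ IsLattice i.range

/-- `E` is `SL_n(k)` or `PSL_n(k)`. -/
inductive TypeK (n : ℕ) (k : Type) [NontriviallyNormedField k] :
    (E : Type) → [Group E] → [TopologicalSpace E] → Prop
  | sl : TypeK n k (Matrix.SpecialLinearGroup (Fin n) k)
  | psl : TypeK n k (Matrix.SpecialLinearGroup (Fin n) k ⧸
      Subgroup.center (Matrix.SpecialLinearGroup (Fin n) k))

/-- `Γ` is an ICC lattice (reducible or not) in a finite product of groups `SL_(n_j)(k)`,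
`PSL_(n_j)(k)`, `n_j ≥ 3`, over one field `k`. -/
def LatticeK (k : Type) [NontriviallyNormedField k] (Γ : Type) [Group Γ] : Prop :=
  ICC Γ ∧ ∃ (I : Type) (_ : Fintype I) (n : I → ℕ)
    (E : I → Type) (_ : ∀ j, Group (E j)) (_ : ∀ j, TopologicalSpace (E j)) (i : Γ →* ∀ j, E j),
    (∀ j, 3 ≤ n j) ∧ (∀ j, TypeK (n j) k (E j)) ∧ Function.Injective i ∧ IsLattice i.range

/-- The final statement, `t = 1`. -/
def Final1 : Prop := ∀ (Γ : Type) [Group Γ], LatticeA Γ → Super Γ

/-- Version with one local field. -/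
def Final1K : Prop := ∀ (k : Type) [NontriviallyNormedField k] [ProperSpace k], LocK k →
  ∀ (Γ : Type) [Group Γ], LatticeK k Γ → Super Γ

/-- The final statement, all `t`. -/
def FinalAll : Prop := ∀ (Γ : Type) [Group Γ], LatticeA Γ → SuperAll Γ

end Vale.Agent.P092.SNP.St
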